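import Vale.Agent.N079.Final

namespace Vale.Agent.Results.P079.A0SemigroupFPP

universe u v

/-- `T : C → C` is nonexpansive for the given norm of `X`. -/
def Nonexpansive {X : Type u} [NormedAddCommGroup X] {C : Set X} (T : C → C) : Prop :=
  ∀ a b : C, ‖(T a : X) - (T b : X)‖ ≤ ‖(a : X) - (b : X)‖

/-- The semigroup `S` has a left invariant mean: a real number `m f` for each bounded real function
`f` on `S`, linear in `f`, nonnegative for nonnegative `f`, equal to `1` for `f = 1`, and the same
for `f` and for each left translate `s ↦ f (a * s)`. Values at unbounded functions play no role. -/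
def LeftAmenable (S : Type v) [Semigroup S] : Prop :=
  ∃ m : (S → ℝ) → ℝ,
    (∀ f g : S → ℝ, Bornology.IsBounded (Set.range f) → Bornology.IsBounded (Set.range g) →
      m (f + g) = m f + m g) ∧
    (∀ (c : ℝ) (f : S → ℝ), Bornology.IsBounded (Set.range f) → m (c • f) = c * m f) ∧
    (∀ f : S → ℝ, Bornology.IsBounded (Set.range f) → (∀ s, 0 ≤ f s) → 0 ≤ m f) ∧
    m (fun _ => 1) = 1 ∧
    ∀ (a : S) (f : S → ℝ), Bornology.IsBounded (Set.range f) → m (fun s => f (a * s)) = m f

/-- The semigroup `S` is left and right reversible: any two elements have a common right multiple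
and a common left multiple. Groups and commutative semigroups are examples. -/
def Reversible (S : Type v) [Semigroup S] : Prop :=
  (∀ a b : S, ∃ p q : S, a * p = b * q) ∧ ∀ a b : S, ∃ p q : S, p * a = q * b

/-- Let `X` be a reflexive real Banach space and `C` a nonempty closed convex subset.
(1) A left amenable, or left and right reversible, semigroup acting on `C` by nonexpansive maps has
a common fixed point if and only if some orbit is bounded, and for bounded `C` there is a
nonexpansive retraction of `C` onto the common fixed points.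
(2) If `C` is bounded, some point of `C` is fixed by every isometry of `C` onto itself. -/
theorem result (X : Type u) [NormedAddCommGroup X] [NormedSpace ℝ X] [CompleteSpace X]
    (hX : Function.Surjective (NormedSpace.inclusionInDoubleDual ℝ X))
    (C : Set X) (hne : C.Nonempty) (hcl : IsClosed C) (hco : Convex ℝ C) :
    (∀ (S : Type v) [Semigroup S], LeftAmenable S ∨ Reversible S →
      ∀ T : S → C → C, (∀ s, Nonexpansive (T s)) → (∀ s t a, T (s * t) a = T s (T t a)) →
        ((∃ a : C, ∀ s, T s a = a) ↔
          ∃ a : C, Bornology.IsBounded (Set.range fun s => (T s a : X))) ∧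
        (Bornology.IsBounded C → ∃ r : C → C, Nonexpansive r ∧
          (∀ a s, T s (r a) = r a) ∧ ∀ a, (∀ s, T s a = a) → r a = a)) ∧
    (Bornology.IsBounded C → ∃ a : C, ∀ T : C ≃ᵢ C, T a = a) := by
  refine ⟨fun S _ hS T hT hmul => Vale.Agent.N079.semigroup_main hX ?_ hcl hco T hT hmul,
    fun hb => Vale.Agent.N079.isometry_main hX hne hcl hb hco⟩
  rcases hS with ⟨m, h1, h2, h3, h4, h5⟩ | h
  · exact Or.inl ⟨m, Vale.Agent.N079.mean_of m h1 h2 h3 h4 h5⟩
  · exact Or.inr h

end Vale.Agent.Results.P079.A0SemigroupFPP
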